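import Vale.Agent.P209.H710.Nec.Defs
import Mathlib.Analysis.Calculus.FDeriv.Bilinear
import Mathlib.Analysis.Calculus.FDeriv.Pi
import Mathlib.Analysis.Calculus.FDeriv.Prod
import Mathlib.Analysis.Calculus.FDeriv.Add
import Mathlib.Analysis.Calculus.FDeriv.Mul

/-!
# P209, necessity: row C1, the derivative of the generating function
-/

namespace Vale.Agent.P209.H868.NecC1

open Vale.Agent.P209.H710.Nec

noncomputable section

universe u

variable {V : Type u} [NormedAddCommGroup V] [InnerProductSpace ℂ V]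

theorem om_swap (u v : V) : om u v = -om v u := by
  rw [om_apply, om_apply, ← inner_conj_symm u v, Complex.conj_im]

theorem om_addL (u u' v : V) : om (u + u') v = om u v + om u' v := by
  rw [om_apply, om_apply, om_apply, inner_add_left, Complex.add_im]

theorem om_smulL (c : ℝ) (u v : V) : om (c • u) v = c * om u v := by
  rw [om_swap, map_smul, smul_eq_mul, om_swap u v]; ring

/-- `om` as a real linear map in the first variable. -/
def omL (v : V) : V →+ ℝ where
  toFun u := om u v
  map_zero' := by rw [om_swap, map_zero, neg_zero]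
  map_add' u u' := om_addL u u' v

theorem om_sumL {ι : Type*} (s : Finset ι) (u : ι → V) (v : V) :
    om (∑ i ∈ s, u i) v = ∑ i ∈ s, om (u i) v :=
  map_sum (omL v) u s

theorem om_subL (u u' v : V) : om (u - u') v = om u v - om u' v :=
  map_sub (omL v) u u'

/-- The bilinear map `om`. -/
def omB : V →L[ℝ] V →L[ℝ] ℝ :=
  LinearMap.mkContinuous₂
    { toFun := fun u => (om u : V →L[ℝ] ℝ).toLinearMap
      map_add' := fun u u' => by
        ext v
        exact om_addL u u' v
      map_smul' := fun c u => by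
        ext v
        exact om_smulL c u v } 1 (fun u v => by
      change ‖om u v‖ ≤ 1 * ‖u‖ * ‖v‖
      rw [om_apply, one_mul, Real.norm_eq_abs]
      exact (Complex.abs_im_le_norm _).trans (norm_inner_le_norm u v))

theorem omB_apply (u v : V) : omB u v = om u v := rfl

/-- The `j`-th midpoint as a continuous linear map. -/
def midL {M : ℕ} (j : ℕ) : W V M →L[ℝ] V :=
  ContinuousLinearMap.fst ℝ V ((Fin M → V) × (Fin M → V)) +
  ∑ k : Fin M, (if j ≤ (k : ℕ) then
    ((ContinuousLinearMap.proj (R := ℝ) (φ := fun _ : Fin M => V) k).comp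
    ((ContinuousLinearMap.fst ℝ (Fin M → V) (Fin M → V)).comp
      (ContinuousLinearMap.snd ℝ V ((Fin M → V) × (Fin M → V))))) else 0) +
  ∑ k : Fin M, (if j = (k : ℕ) + 1 then
    ((ContinuousLinearMap.proj (R := ℝ) (φ := fun _ : Fin M => V) k).comp
    ((ContinuousLinearMap.snd ℝ (Fin M → V) (Fin M → V)).comp
      (ContinuousLinearMap.snd ℝ V ((Fin M → V) × (Fin M → V))))) else 0)

theorem midL_apply {M : ℕ} (j : ℕ) (x : W V M) : midL j x = mid x j := by
  unfold midL mid
  simp only [add_apply, sum_apply]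
  refine congrArg₂ (· + ·) (congrArg₂ (· + ·) rfl ?_) ?_
  · refine Finset.sum_congr rfl fun k _ => ?_
    split_ifs <;> rfl
  · refine Finset.sum_congr rfl fun k _ => ?_
    split_ifs <;> rfl

theorem DD_apply {M : ℕ} (X : ℕ → V → V) (x v : W V M) :
    DD X x v = om (alp X x) v.1 + ∑ k, om (bet X x k) (v.2.1 k) +
      ∑ k, om (gam X x k) (v.2.2 k) := by
  unfold DD
  simp only [add_apply, sum_apply]
  rfl

theorem om_two (u v : V) : om ((2 : ℂ) • u) v = 2 * om u v := by
  have : (2 : ℂ) • u = u + u := two_smul ℂ u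
  rw [this, om_addL]; ring

/-- The sum over the steps of the derivatives of the step functions. -/
theorem sum_om_mid {M : ℕ} (Y : ℕ → V) (v : W V M) :
    ∑ j ∈ Finset.range (M + 1), om (Y j) (mid v j) =
      om (∑ j ∈ Finset.range (M + 1), Y j) v.1 +
      ∑ k : Fin M, om (∑ j ∈ Finset.range ((k : ℕ) + 1), Y j) (v.2.1 k) +
      ∑ k : Fin M, om (Y ((k : ℕ) + 1)) (v.2.2 k) := by
  have h1 : ∀ j, om (Y j) (mid v j) = om (Y j) v.1 +
      ∑ k : Fin M, (if j ≤ (k : ℕ) then om (Y j) (v.2.1 k) else 0) +
      ∑ k : Fin M, (if j = (k : ℕ) + 1 then om (Y j) (v.2.2 k) else 0) := by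
    intro j
    unfold mid
    rw [map_add, map_add, map_sum, map_sum]
    refine congrArg₂ (· + ·) (congrArg₂ (· + ·) rfl ?_) ?_
    · refine Finset.sum_congr rfl fun k _ => ?_
      split_ifs
      · rfl
      · exact map_zero _
    · refine Finset.sum_congr rfl fun k _ => ?_
      split_ifs
      · rfl
      · exact map_zero _
  rw [Finset.sum_congr rfl fun j _ => h1 j, Finset.sum_add_distrib, Finset.sum_add_distrib,
    om_sumL, Finset.sum_comm, Finset.sum_comm (s := Finset.range (M + 1)) (t := Finset.univ)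
      (f := fun j (k : Fin M) => if j = (k : ℕ) + 1 then om (Y j) (v.2.2 k) else 0)]
  refine congrArg₂ (· + ·) (congrArg₂ (· + ·) rfl ?_) ?_
  · refine Finset.sum_congr rfl fun k _ => ?_
    rw [om_sumL, ← Finset.sum_filter]
    refine Finset.sum_congr ?_ fun _ _ => rfl
    ext j
    simp only [Finset.mem_filter, Finset.mem_range]
    have := k.2
    omega
  · refine Finset.sum_congr rfl fun k _ => ?_
    rw [Finset.sum_ite_eq' (Finset.range (M + 1)) ((k : ℕ) + 1)
      (fun j => om (Y j) (v.2.2 k)), if_pos]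
    have := k.2
    rw [Finset.mem_range]
    omega

/-- Row C1. -/
theorem C1 : C1_statement.{u} := by
  intro V _ _ M f X hf x
  have hmid : ∀ j, HasFDerivAt (fun y : W V M => mid y j) (midL j) x := by
    intro j
    have h := (midL (V := V) (M := M) j).hasFDerivAt (x := x)
    exact h.congr_of_eventuallyEq (Filter.Eventually.of_forall fun y => (midL_apply j y).symm)
  have hstep : ∀ j, HasFDerivAt (fun y : W V M => f j (mid y j))
      ((om (X j (mid x j))).comp (midL j)) x := fun j =>
    (hf j (mid x j)).comp x (hmid j)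
  have hsum : HasFDerivAt (fun y : W V M => ∑ j ∈ Finset.range (M + 1), f j (mid y j))
      (∑ j ∈ Finset.range (M + 1), (om (X j (mid x j))).comp (midL j)) x :=
    HasFDerivAt.fun_sum fun j _ => hstep j
  let PL : Fin M → (W V M →L[ℝ] V) := fun k =>
    (ContinuousLinearMap.proj (R := ℝ) (φ := fun _ : Fin M => V) k).comp
    ((ContinuousLinearMap.fst ℝ (Fin M → V) (Fin M → V)).comp
      (ContinuousLinearMap.snd ℝ V ((Fin M → V) × (Fin M → V))))
  let QL : Fin M → (W V M →L[ℝ] V) := fun k =>
    (ContinuousLinearMap.proj (R := ℝ) (φ := fun _ : Fin M => V) k).comp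
    ((ContinuousLinearMap.snd ℝ (Fin M → V) (Fin M → V)).comp
      (ContinuousLinearMap.snd ℝ V ((Fin M → V) × (Fin M → V))))
  have hq : ∀ k : Fin M, HasFDerivAt (fun y : W V M => omB (PL k y) (QL k y))
      ((omB.precompR (W V M) (PL k x) (QL k)) + (omB.precompL (W V M) (PL k) (QL k x))) x :=
    fun k => omB.hasFDerivAt_of_bilinear (PL k).hasFDerivAt (QL k).hasFDerivAt
  have hqs : HasFDerivAt (fun y : W V M => 2 * ∑ k : Fin M, omB (PL k y) (QL k y))
      ((2 : ℝ) • ∑ k : Fin M, ((omB.precompR (W V M) (PL k x) (QL k)) +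
        (omB.precompL (W V M) (PL k) (QL k x)))) x :=
    (HasFDerivAt.fun_sum fun k _ => hq k).const_mul 2
  have key := hqs.add hsum
  have hD : DD X x = (2 : ℝ) • ∑ k : Fin M, ((omB.precompR (W V M) (PL k x) (QL k)) +
        (omB.precompL (W V M) (PL k) (QL k x))) +
      ∑ j ∈ Finset.range (M + 1), (om (X j (mid x j))).comp (midL j) := by
    refine ContinuousLinearMap.ext fun v => ?_
    rw [DD_apply]
    simp only [add_apply, sum_apply,
      smul_apply, ContinuousLinearMap.comp_apply, midL_apply]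
    rw [sum_om_mid (fun j => X j (mid x j)) v]
    have e1 : ∀ k : Fin M, (omB.precompR (W V M) (PL k x) (QL k)) v +
        (omB.precompL (W V M) (PL k) (QL k x)) v = om (x.2.1 k) (v.2.2 k) +
          om (v.2.1 k) (x.2.2 k) := fun k => rfl
    have e2 : ∀ k : Fin M, om (bet X x k) (v.2.1 k) =
        om (∑ j ∈ Finset.range ((k : ℕ) + 1), X j (mid x j)) (v.2.1 k) +
          2 * om (v.2.1 k) (x.2.2 k) := by
      intro k
      unfold bet
      rw [om_subL, om_two, om_swap (x.2.2 k)]
      ring
    have e3 : ∀ k : Fin M, om (gam X x k) (v.2.2 k) =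
        om (X ((k : ℕ) + 1) (mid x ((k : ℕ) + 1))) (v.2.2 k) + 2 * om (x.2.1 k) (v.2.2 k) := by
      intro k
      unfold gam
      rw [om_addL, om_two]
      ring
    rw [Finset.sum_congr rfl fun k _ => e1 k, Finset.sum_congr rfl fun k _ => e2 k,
      Finset.sum_congr rfl fun k _ => e3 k, Finset.sum_add_distrib, Finset.sum_add_distrib,
      Finset.sum_add_distrib, ← Finset.mul_sum, ← Finset.mul_sum, smul_eq_mul]
    unfold alp
    ring
  rw [hD]
  exact key

end

end Vale.Agent.P209.H868.NecC1

/-- Row C1. -/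
theorem Vale.Agent.P209.H710.Nec.C1.{u} : Vale.Agent.P209.H710.Nec.C1_statement.{u} :=
  Vale.Agent.P209.H868.NecC1.C1
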