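import Vale.Agent.P209.H710.Nec.Defs

/-!
# P209, necessity: row C2, fibre critical points are chains
-/

namespace Vale.Agent.P209.H710.Nec

noncomputable section

universe u

/-- Row C2. -/
theorem C2 : C2_statement.{u} := by
  intro V _ _ M X x hb hg
  set Y : ℕ → V := fun j => X j (mid x j) with hY
  have hQ : ∀ k : Fin M, (2 : ℂ) • x.2.2 k = ∑ j ∈ Finset.range ((k : ℕ) + 1), Y j := fun k =>
    (sub_eq_zero.mp (hb k)).symm
  have hP : ∀ k : Fin M, (2 : ℂ) • x.2.1 k = -Y ((k : ℕ) + 1) := fun k =>
    eq_neg_of_add_eq_zero_left (hg k)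
  have halp : alp X x = ∑ j ∈ Finset.range (M + 1), Y j := rfl
  -- twice the midpoint
  have hmid : ∀ j, j < M + 1 → (2 : ℂ) • mid x j = (2 : ℂ) • x.1 -
      ∑ i ∈ Finset.Ico (j + 1) (M + 1), Y i + ∑ i ∈ Finset.range j, Y i := by
    intro j hj
    unfold mid
    rw [smul_add, smul_add, Finset.smul_sum, Finset.smul_sum, sub_eq_add_neg]
    refine congrArg₂ (· + ·) (congrArg₂ (· + ·) rfl ?_) ?_
    · have e : ∀ k : Fin M, (2 : ℂ) • (if j ≤ (k : ℕ) then x.2.1 k else 0) =
          if j ≤ (k : ℕ) then -Y ((k : ℕ) + 1) else 0 := by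
        intro k
        split_ifs
        · exact hP k
        · exact smul_zero _
      rw [Finset.sum_congr rfl fun k _ => e k,
        Fin.sum_univ_eq_sum_range (fun k => if j ≤ k then -Y (k + 1) else 0) M,
        ← Finset.sum_filter, ← Finset.sum_neg_distrib, Finset.sum_Ico_eq_sum_range]
      refine Finset.sum_bij' (fun k _ => k - j) (fun i _ => i + j) ?_ ?_ ?_ ?_ ?_
      · intro k hk
        simp only [Finset.mem_filter, Finset.mem_range] at hk ⊢
        omega
      · intro k hk
        simp only [Finset.mem_filter, Finset.mem_range] at hk ⊢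
        omega
      · intro k hk
        simp only [Finset.mem_filter, Finset.mem_range] at hk
        omega
      · intro k hk
        simp only [Finset.mem_range] at hk
        omega
      · intro k hk
        simp only [Finset.mem_filter, Finset.mem_range] at hk
        have : j + 1 + (k - j) = k + 1 := by omega
        rw [this]
    · have e : ∀ k : Fin M, (2 : ℂ) • (if j = (k : ℕ) + 1 then x.2.2 k else 0) =
          if j = (k : ℕ) + 1 then ∑ i ∈ Finset.range j, Y i else 0 := by
        intro k
        split_ifs with h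
        · rw [hQ k, h]
        · exact smul_zero _
      rw [Finset.sum_congr rfl fun k _ => e k]
      rcases Nat.eq_zero_or_pos j with h0 | h0
      · subst h0
        rw [Finset.range_zero, Finset.sum_empty]
        exact Finset.sum_eq_zero fun k _ => ite_self _
      · rw [Finset.sum_eq_single (⟨j - 1, by omega⟩ : Fin M)]
        · rw [if_pos]
          change j = j - 1 + 1
          omega
        · intro k _ hk
          rw [if_neg]
          intro h
          apply hk
          apply Fin.ext
          change (k : ℕ) = j - 1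
          omega
        · intro h
          exact absurd (Finset.mem_univ _) h
  have hhalf : ∀ v : V, (2 : ℂ) • ((1 / 2 : ℂ) • v) = v := by
    intro v
    rw [smul_smul]
    norm_num
  refine ⟨fun j => x.1 - (1 / 2 : ℂ) • (∑ i ∈ Finset.range (M + 1), Y i) +
    ∑ i ∈ Finset.range j, Y i, ?_, ?_, ?_, ?_⟩
  · intro j _
    change (_ + ∑ i ∈ Finset.range (j + 1), Y i) - (_ + _) = Y j
    rw [add_sub_add_left_eq_sub, Finset.sum_range_succ, add_sub_cancel_left]
  · intro j hj
    rw [hmid j hj]
    have hs : ∑ i ∈ Finset.range (M + 1), Y i = ∑ i ∈ Finset.range j, Y i + Y j +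
        ∑ i ∈ Finset.Ico (j + 1) (M + 1), Y i := by
      rw [← Finset.sum_range_succ, Finset.sum_range_add_sum_Ico _ hj]
    have h2 : ∀ a b : V, (a - (1 / 2 : ℂ) • b) + (a - (1 / 2 : ℂ) • b) = (2 : ℂ) • a - b := by
      intro a b
      rw [← two_smul ℂ, smul_sub, hhalf]
    have h3 : (x.1 - (1 / 2 : ℂ) • (∑ i ∈ Finset.range (M + 1), Y i) +
        ∑ i ∈ Finset.range j, Y i) + (x.1 - (1 / 2 : ℂ) • (∑ i ∈ Finset.range (M + 1), Y i) +
        ∑ i ∈ Finset.range (j + 1), Y i) = ((2 : ℂ) • x.1 - ∑ i ∈ Finset.range (M + 1), Y i) +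
        (∑ i ∈ Finset.range j, Y i + ∑ i ∈ Finset.range (j + 1), Y i) := by
      rw [← h2]
      abel
    rw [h3, hs, Finset.sum_range_succ]
    abel
  · beta_reduce
    rw [halp, Finset.range_zero, Finset.sum_empty, add_sub_add_left_eq_sub, sub_zero]
  · beta_reduce
    rw [Finset.range_zero, Finset.sum_empty]
    have h2 : x.1 - (1 / 2 : ℂ) • (∑ i ∈ Finset.range (M + 1), Y i) + 0 +
        (x.1 - (1 / 2 : ℂ) • (∑ i ∈ Finset.range (M + 1), Y i) +
        ∑ i ∈ Finset.range (M + 1), Y i) = (2 : ℂ) • x.1 -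
          (2 : ℂ) • ((1 / 2 : ℂ) • ∑ i ∈ Finset.range (M + 1), Y i) +
          ∑ i ∈ Finset.range (M + 1), Y i := by
      rw [two_smul, two_smul]
      abel
    rw [h2, hhalf, sub_add_cancel]

end

end Vale.Agent.P209.H710.Nec
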