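import Vale.Agent.P209.H710.Nec.Defs
import Mathlib.Analysis.SpecialFunctions.Sqrt
import Mathlib.Analysis.InnerProductSpace.Calculus
import Mathlib.Analysis.SpecialFunctions.ExpDeriv
import Mathlib.Analysis.SpecialFunctions.Complex.Analytic
import Mathlib.MeasureTheory.Integral.IntervalIntegral.FundThmCalculus

/-!
# P209, necessity: row G2, lifting an integral curve
-/

namespace Vale.Agent.P209.H868.NecG2

open Vale.Agent.P209.H710.Nec

noncomputable section

universe u

variable {n : ℕ}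

theorem rad_arg_pos {y : Fin n → ℂ} (hy : y ∈ openBall n 1) : 0 < 1 / Real.pi - nsq y := by
  have h : Real.pi * ∑ j, ‖y j‖ ^ 2 < 1 := hy
  have hp := Real.pi_pos
  unfold nsq
  rw [sub_pos, lt_div_iff₀ hp]
  linarith

theorem rad_pos {y : Fin n → ℂ} (hy : y ∈ openBall n 1) : 0 < rad y :=
  Real.sqrt_pos.mpr (rad_arg_pos hy)

theorem continuous_nsq : Continuous (nsq (n := n)) := by
  unfold nsq
  fun_prop

theorem continuous_rad : Continuous (rad (n := n)) :=
  Real.continuous_sqrt.comp (continuous_const.sub continuous_nsq)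

section

variable {V : Type u} [NormedAddCommGroup V] [InnerProductSpace ℂ V]

/-- The inverse of `e` as a continuous real linear map. -/
def es (e : V ≃ₗ[ℂ] ℂ × (Fin n → ℂ)) : (ℂ × (Fin n → ℂ)) →L[ℝ] V :=
  (LinearMap.toContinuousLinearMap e.symm.toLinearMap).restrictScalars ℝ

theorem es_apply (e : V ≃ₗ[ℂ] ℂ × (Fin n → ℂ)) (x : ℂ × (Fin n → ℂ)) : es e x = e.symm x := rfl

/-- The first component of `dsig`. -/
def dr (y v : Fin n → ℂ) : ℝ := -(∑ j, ((starRingEnd ℂ) (y j) * v j).re) / rad y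

theorem dsig_eq (e : V ≃ₗ[ℂ] ℂ × (Fin n → ℂ)) (y v : Fin n → ℂ) :
    dsig e y v = es e ((dr y v : ℂ), v) := rfl

theorem sig_eq (e : V ≃ₗ[ℂ] ℂ × (Fin n → ℂ)) (y : Fin n → ℂ) :
    sig e y = es e ((rad y : ℂ), y) := rfl

theorem dr_smul (τ : ℝ) (y v : Fin n → ℂ) : dr y (τ • v) = τ * dr y v := by
  unfold dr
  have : ∀ j, ((starRingEnd ℂ) (y j) * (τ • v) j).re = τ * ((starRingEnd ℂ) (y j) * v j).re := by
    intro j
    rw [Pi.smul_apply, mul_smul_comm, Complex.real_smul, Complex.re_ofReal_mul]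
  rw [Finset.sum_congr rfl fun j _ => this j, ← Finset.mul_sum]
  ring

theorem dsig_smul (e : V ≃ₗ[ℂ] ℂ × (Fin n → ℂ)) (τ : ℝ) (y v : Fin n → ℂ) :
    dsig e y (τ • v) = (τ : ℂ) • dsig e y v := by
  rw [dsig_eq, dsig_eq, dr_smul, es_apply, es_apply, ← map_smul]
  refine congrArg e.symm (Prod.ext ?_ ?_)
  · change ((τ * dr y v : ℝ) : ℂ) = (τ : ℂ) • ((dr y v : ℝ) : ℂ)
    rw [Complex.ofReal_mul, smul_eq_mul]
  · funext j
    change (τ • v) j = (τ : ℂ) * v j
    rw [Pi.smul_apply, Complex.real_smul]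

theorem continuous_sig (e : V ≃ₗ[ℂ] ℂ × (Fin n → ℂ)) : Continuous (sig e) := by
  have h : Continuous fun y : Fin n → ℂ => es e ((rad y : ℂ), y) :=
    (es e).continuous.comp ((Complex.continuous_ofReal.comp continuous_rad).prodMk continuous_id)
  exact h

theorem continuousOn_dr (Y : (Fin n → ℂ) → (Fin n → ℂ)) (hY : Continuous Y) :
    ContinuousOn (fun y => dr y (Y y)) (openBall n 1) := by
  unfold dr
  refine ContinuousOn.div ?_ continuous_rad.continuousOn fun y hy => (rad_pos hy).ne'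
  refine Continuous.continuousOn (Continuous.neg (continuous_finsetSum _ fun j _ => ?_))
  exact Complex.continuous_re.comp ((Complex.continuous_conj.comp (continuous_apply j)).mul
    ((continuous_apply j).comp hY))

theorem continuousOn_dsig (e : V ≃ₗ[ℂ] ℂ × (Fin n → ℂ)) (Y : (Fin n → ℂ) → (Fin n → ℂ))
    (hY : Continuous Y) : ContinuousOn (fun y => dsig e y (Y y)) (openBall n 1) := by
  have h : ContinuousOn (fun y : Fin n → ℂ => es e ((dr y (Y y) : ℂ), Y y)) (openBall n 1) :=
    (es e).continuous.comp_continuousOn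
      ((Complex.continuous_ofReal.comp_continuousOn (continuousOn_dr Y hY)).prodMk
        hY.continuousOn)
  exact h

theorem continuousOn_vert (e : V ≃ₗ[ℂ] ℂ × (Fin n → ℂ)) (H : (Fin n → ℂ) → ℝ)
    (Y : (Fin n → ℂ) → (Fin n → ℂ)) (hH : Continuous H) (hY : Continuous Y) :
    ContinuousOn (fun y => vert e H y (Y y)) (openBall n 1) := by
  unfold vert
  refine ContinuousOn.mul continuousOn_const (ContinuousOn.sub
    (continuousOn_const.mul hH.continuousOn) ?_)
  exact Complex.continuous_re.comp_continuousOn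
    (ContinuousOn.inner ((continuousOn_dsig e Y hY).const_smul Complex.I)
      (continuous_sig e).continuousOn)

theorem hasDeriv_nsq {y : ℝ → (Fin n → ℂ)} {v : Fin n → ℂ} {s : Set ℝ} {t : ℝ}
    (h : HasDerivWithinAt y v s t) :
    HasDerivWithinAt (fun r => nsq (y r)) (2 * ∑ j, ((starRingEnd ℂ) (y t j) * v j).re) s t := by
  unfold nsq
  rw [Finset.mul_sum]
  refine HasDerivWithinAt.fun_sum fun j _ => ?_
  have h2 : HasDerivWithinAt (fun r => y r j) (v j) s t := hasDerivWithinAt_pi.mp h j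
  have h3 := h2.norm_sq
  rw [Complex.inner, mul_comm (v j)] at h3
  exact h3

theorem hasDeriv_rad {y : ℝ → (Fin n → ℂ)} {v : Fin n → ℂ} {s : Set ℝ} {t : ℝ}
    (h : HasDerivWithinAt y v s t) (hy : y t ∈ openBall n 1) :
    HasDerivWithinAt (fun r => rad (y r)) (dr (y t) v) s t := by
  have h1 : HasDerivWithinAt (fun r => 1 / Real.pi - nsq (y r))
      (-(2 * ∑ j, ((starRingEnd ℂ) (y t j) * v j).re)) s t :=
    (hasDeriv_nsq h).const_sub (1 / Real.pi)
  have h2 := h1.sqrt (rad_arg_pos hy).ne'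
  have h3 : -(2 * ∑ j, ((starRingEnd ℂ) (y t j) * v j).re) /
      (2 * Real.sqrt (1 / Real.pi - nsq (y t))) = dr (y t) v := by
    unfold dr
    change _ = -(∑ j, ((starRingEnd ℂ) (y t j) * v j).re) / Real.sqrt (1 / Real.pi - nsq (y t))
    rw [← mul_neg, mul_div_mul_left _ _ (two_ne_zero)]
  rw [h3] at h2
  exact h2

theorem hasDeriv_sig (e : V ≃ₗ[ℂ] ℂ × (Fin n → ℂ)) {y : ℝ → (Fin n → ℂ)} {v : Fin n → ℂ}
    {s : Set ℝ} {t : ℝ} (h : HasDerivWithinAt y v s t) (hy : y t ∈ openBall n 1) :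
    HasDerivWithinAt (fun r => sig e (y r)) (dsig e (y t) v) s t := by
  have h1 : HasDerivWithinAt (fun r => (((rad (y r) : ℝ) : ℂ), y r)) ((dr (y t) v : ℂ), v) s t :=
    (hasDeriv_rad h hy).ofReal_comp.prodMk h
  exact (es e).hasFDerivAt.comp_hasDerivWithinAt t h1

end

/-- Row G2. -/
theorem G2 : G2_statement.{u} := by
  intro V _ _ _ n e _ H Y X hH hY hX hsig τ y a hy hyd
  -- the integrand
  set g : ℝ → ℝ := fun t => τ * vert e H (y t) (Y (y t)) with hg
  have hyc : ContinuousOn y (Set.Icc 0 1) := fun t ht => (hyd t ht).continuousWithinAt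
  have hgc : ContinuousOn g (Set.Icc 0 1) :=
    continuousOn_const.mul ((continuousOn_vert e H Y hH hY).comp hyc hy)
  set G : ℝ → ℝ := Set.IccExtend (zero_le_one' ℝ) ((Set.Icc 0 1).domRestrict g) with hG
  have hGc : Continuous G := hgc.domRestrict.Icc_extend'
  have hGg : ∀ t ∈ Set.Icc (0 : ℝ) 1, G t = g t := fun t ht => by
    rw [hG, Set.IccExtend_of_mem _ _ ht]
    rfl
  have hθ : ∀ t : ℝ, HasDerivAt (fun t => ∫ r in (0 : ℝ)..t, G r) (G t) t := fun t =>
    (hGc.integral_hasStrictDerivAt 0 t).hasDerivAt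
  refine ⟨fun t => ∫ r in (0 : ℝ)..t, G r, intervalIntegral.integral_same, ?_, ?_⟩
  · intro t ht
    have := (hθ t).hasDerivWithinAt (s := Set.Icc 0 1)
    rw [hGg t ht] at this
    exact this
  · intro t ht
    set θ : ℝ → ℝ := fun t => ∫ r in (0 : ℝ)..t, G r with hθd
    have h1 : HasDerivWithinAt θ (g t) (Set.Icc 0 1) t := by
      have := (hθ t).hasDerivWithinAt (s := Set.Icc 0 1)
      rw [hGg t ht] at this
      exact this
    have h2 : HasDerivWithinAt (fun t => a * Complex.exp (θ t * Complex.I))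
        (a * (Complex.exp (θ t * Complex.I) * ((g t : ℂ) * Complex.I))) (Set.Icc 0 1) t :=
      (((h1.ofReal_comp).mul_const Complex.I).cexp).const_mul a
    have h3 := hasDeriv_sig e (hyd t ht) (hy t ht)
    have h4 := h2.fun_smul h3
    have h5 : (a * Complex.exp (θ t * Complex.I)) • dsig e (y t) (τ • Y (y t)) +
        (a * (Complex.exp (θ t * Complex.I) * ((g t : ℂ) * Complex.I))) • sig e (y t) =
        (τ : ℂ) • X ((a * Complex.exp (θ t * Complex.I)) • sig e (y t)) := by
      rw [hX, hsig (y t) (hy t ht), dsig_smul, smul_add, smul_add, smul_smul, smul_smul,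
        smul_smul, smul_smul]
      refine congrArg₂ (· + ·) (congrArg (· • dsig e (y t) (Y (y t))) ?_)
        (congrArg (· • sig e (y t)) ?_)
      · ring
      · rw [hg]
        push_cast
        ring
    rw [h5] at h4
    exact h4

end

end Vale.Agent.P209.H868.NecG2
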